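import Vale.Agent.P228.Deg.Ext

/-!
The topological core: a map which is invariant under a generator, a nowhere vanishing
equivariant complex function over the fibre of `y` and a degree one condition are incompatible.
-/

noncomputable section

open Set Filter Metric Function Module
open scoped Topology NNReal

namespace Vale.Agent.P228

variable {X : Type*} [NormedAddCommGroup X] [NormedSpace ℝ X] [FiniteDimensional ℝ X]
  [Nontrivial X]

/-- `exp (2πis)`. -/
def circ (s : ℝ) : ℂ := Complex.exp (2 * Real.pi * s * Complex.I)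

lemma circ_ne_zero (s : ℝ) : circ s ≠ 0 := Complex.exp_ne_zero _

lemma norm_circ (s : ℝ) : ‖circ s‖ = 1 := norm_exp_turn s

lemma circ_add (s t : ℝ) : circ (s + t) = circ s * circ t := by
  rw [circ, circ, circ, ← Complex.exp_add]; push_cast; ring_nf

lemma circ_zero : circ 0 = 1 := by simp [circ]

lemma circ_one : circ 1 = 1 := by
  rw [circ]; push_cast; rw [mul_one, Complex.exp_two_pi_mul_I]

lemma circ_pow (s : ℝ) (m : ℕ) : circ s ^ m = circ (m * s) := by
  rw [circ, circ, ← Complex.exp_nat_mul]; push_cast; ring_nf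

@[fun_prop]
lemma continuous_circ : Continuous circ := by unfold circ; fun_prop

lemma polar_eq_mul (r t : ℝ) : polar r t = (r : ℂ) * circ t := rfl

/-- Hypotheses of the core incompatibility statement. -/
structure CoreData (p : ℕ) (C V : Set X) (φ : X → X) (u : X → ℂ) (A : ℕ → X → X) (y : X) :
    Prop where
  hp : p.Prime
  hC : IsCompact C
  hconv : Convex ℝ C
  hV : IsOpen V
  hVC : closure V ⊆ C
  hφ : ContinuousOn φ C
  hu : ContinuousOn u C
  hA : ∀ i, ContinuousOn (A i) C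
  hA0 : ∀ x ∈ C, A 0 x = x
  hP : ∀ i, ∀ x ∈ closure V, ∀ τ ∈ Icc (0 : ℝ) 1, A i ((1 - τ) • x + τ • A 1 x) ∈ C
  hcomp : ∀ i, ∀ x ∈ closure V, A i (A 1 x) = A (i + 1) x
  hφA : ∀ i, ∀ w ∈ C, A i w ∈ C → φ (A i w) = φ w
  huA : ∀ i : ℕ, ∀ w ∈ C, A i w ∈ C → u (A i w) = circ (i / p) * u w
  hy : ∀ w ∈ C, φ w = y → u w ≠ 0

omit [FiniteDimensional ℝ X] [Nontrivial X] in
lemma continuousOn_lerp {α Y : Type*} [TopologicalSpace α] [NormedAddCommGroup Y] [NormedSpace ℝ Y]
    {S : Set α} {a b : α → Y} {r : α → ℝ} (hr : ContinuousOn r S) (ha : ContinuousOn a S)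
    (hb : ContinuousOn b S) : ContinuousOn (fun x => (1 - r x) • a x + r x • b x) S :=
  ((continuousOn_const.sub hr).smul ha).add (hr.smul hb)

lemma exists_dist_lower_bound {α Y : Type*} [TopologicalSpace α] [NormedAddCommGroup Y]
    {K : Set α} (hK : IsCompact K) {f : α → Y} (hf : ContinuousOn f K) {q : Y}
    (hq : ∀ x ∈ K, f x ≠ q) : ∃ r > 0, ∀ x ∈ K, r ≤ ‖f x - q‖ := by
  obtain ⟨r, hr, h⟩ := hK.exists_forall_le' (a := (0 : ℝ)) (hf.sub continuousOn_const).norm
    fun x hx => norm_pos_iff.2 (sub_ne_zero.2 (hq x hx))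
  exact ⟨r, hr, h⟩

namespace CoreData

variable {p : ℕ} {C V : Set X} {φ : X → X} {u : X → ℂ} {A : ℕ → X → X} {y : X}
  (D : CoreData p C V φ u A y)

/-- The invariant map to `X × ℂ`. -/
def Φ (p : ℕ) (φ : X → X) (u : X → ℂ) (w : X) : X × ℂ := (φ w, u w ^ p)

/-- The segment from a point to its image. -/
def seg (A : ℕ → X → X) (x : X) (τ : ℝ) : X := (1 - τ) • x + τ • A 1 x

include D

omit [FiniteDimensional ℝ X] [Nontrivial X] in
lemma pne : (p : ℕ) ≠ 0 := D.hp.ne_zero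

omit [FiniteDimensional ℝ X] [Nontrivial X] in
lemma seg_mem {x : X} (hx : x ∈ closure V) {τ : ℝ} (hτ : τ ∈ Icc (0 : ℝ) 1) : seg A x τ ∈ C := by
  have h1 : A 1 x ∈ C := by simpa using D.hP 1 x hx 0 (by simp)
  exact D.hconv (D.hVC hx) h1 (by linarith [hτ.2]) hτ.1 (by ring)

omit [FiniteDimensional ℝ X] [Nontrivial X] in
lemma iter_mem {x : X} (hx : x ∈ closure V) (i : ℕ) : A i x ∈ C := by
  simpa using D.hP i x hx 0 (by simp)

omit [FiniteDimensional ℝ X] [Nontrivial X] in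
lemma Φ_iter {w : X} (hw : w ∈ C) {i : ℕ} (hi : A i w ∈ C) : Φ p φ u (A i w) = Φ p φ u w := by
  simp only [Φ, D.hφA i w hw hi, D.huA i w hw hi, mul_pow, circ_pow]
  have hp0 : (p : ℝ) ≠ 0 := by exact_mod_cast D.pne
  rw [show (p : ℝ) * ((i : ℝ) / p) = i by field_simp]
  have : circ (i : ℝ) = 1 := by
    rw [circ]; push_cast
    exact Complex.exp_eq_one_iff.2 ⟨i, by push_cast; ring⟩
  simp [this]

omit [FiniteDimensional ℝ X] [Nontrivial X] in
lemma Φ_ne {w : X} (hw : w ∈ C) : Φ p φ u w ≠ (y, 0) := by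
  intro h
  simp only [Φ, Prod.mk.injEq, pow_eq_zero_iff D.pne] at h
  exact D.hy w hw h.1 h.2

omit [FiniteDimensional ℝ X] [Nontrivial X] in
lemma continuousOn_Φ : ContinuousOn (Φ p φ u) C := D.hφ.prodMk (D.hu.pow p)

omit [Nontrivial X] in
lemma compact_clV : IsCompact (closure V) := D.hC.of_isClosed_subset isClosed_closure D.hVC

omit [Nontrivial X] in
lemma bddV : Bornology.IsBounded V := D.hC.isBounded.subset (subset_closure.trans D.hVC)

omit [FiniteDimensional ℝ X] [Nontrivial X] in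
lemma continuousOn_seg :
    ContinuousOn (fun w : X × ℝ => seg A w.1 w.2) (closure V ×ˢ Icc 0 1) :=
  continuousOn_lerp continuousOn_snd continuousOn_fst
    ((D.hA 1).comp continuousOn_fst fun w hw => D.hVC hw.1)

/-- The filling of a loop by radial interpolation. -/
def fill (p : ℕ) (φ : X → X) (u : X → ℂ) (γ : X → ℝ → X × ℂ) (z : X × ℂ) : X × ℂ :=
  (1 - ‖z.2‖) • Φ p φ u z.1 + ‖z.2‖ • γ z.1 (turn z.2)

omit [Nontrivial X] D in
lemma closure_cyl : closure (V ×ˢ ball (0 : ℂ) 1) = closure V ×ˢ closedBall (0 : ℂ) 1 := by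
  rw [closure_prod_eq, closure_ball _ one_ne_zero]

omit [Nontrivial X] D in
lemma frontier_cyl {z : X × ℂ} (hz : z ∈ frontier (V ×ˢ ball (0 : ℂ) 1)) :
    z.1 ∈ closure V ∧ ‖z.2‖ ≤ 1 ∧ (z.1 ∈ frontier V ∨ ‖z.2‖ = 1) := by
  rw [frontier_prod_eq, frontier_ball _ one_ne_zero, closure_ball _ one_ne_zero] at hz
  rcases hz with ⟨h1, h2⟩ | ⟨h1, h2⟩
  · exact ⟨h1, le_of_eq (by simpa using h2), Or.inr (by simpa using h2)⟩
  · exact ⟨frontier_subset_closure h1, by simpa using h2, Or.inl h1⟩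

omit [Nontrivial X] in
lemma continuousOn_fill {γ : X → ℝ → X × ℂ}
    (hγ : ContinuousOn (fun w : X × ℝ => γ w.1 w.2) (closure V ×ˢ Icc 0 1))
    (h01 : ∀ x ∈ closure V, γ x 0 = γ x 1) :
    ContinuousOn (fill p φ u γ) (closure V ×ˢ closedBall (0 : ℂ) 1) := by
  refine continuousOn_polar (f := fun x r t => (1 - r) • Φ p φ u x + r • γ x t) D.compact_clV ?_
    ⟨fun x hx r _ => by simp [h01 x hx], fun x _ t _ => by simp⟩
  let K : Set (X × ℝ × ℝ) := closure V ×ˢ Icc (0 : ℝ) 1 ×ˢ Icc (0 : ℝ) 1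
  have h1 : ContinuousOn (fun w : X × ℝ × ℝ => Φ p φ u w.1) K :=
    D.continuousOn_Φ.comp continuousOn_fst fun w (hw : w ∈ K) => D.hVC hw.1
  have h2 : ContinuousOn (fun w : X × ℝ × ℝ => γ w.1 w.2.2) K :=
    hγ.comp (f := fun w : X × ℝ × ℝ => (w.1, w.2.2)) (by fun_prop)
      fun w (hw : w ∈ K) => ⟨hw.1, hw.2.2⟩
  exact continuousOn_lerp (continuous_fst.comp continuous_snd).continuousOn h1 h2

/-- Homotopic loops have fillings of equal degree. -/
lemma fill_homotopy {γ : ℝ → X → ℝ → X × ℂ}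
    (hγ : ContinuousOn (fun w : ℝ × X × ℝ => γ w.1 w.2.1 w.2.2)
      (Icc 0 1 ×ˢ closure V ×ˢ Icc 0 1))
    (h01 : ∀ s ∈ Icc (0 : ℝ) 1, ∀ x ∈ closure V, γ s x 0 = γ s x 1)
    (hne : ∀ s ∈ Icc (0 : ℝ) 1, ∀ x ∈ closure V, ∀ t ∈ Icc (0 : ℝ) 1, γ s x t ≠ (y, 0))
    (hb : ∀ s ∈ Icc (0 : ℝ) 1, ∀ x ∈ frontier V, ∀ t ∈ Icc (0 : ℝ) 1, ∀ r ∈ Icc (0 : ℝ) 1,
      (1 - r) • φ x + r • (γ s x t).1 ≠ y) :
    degree (fill p φ u (γ 0)) (V ×ˢ ball (0 : ℂ) 1) (y, 0)
      = degree (fill p φ u (γ 1)) (V ×ˢ ball (0 : ℂ) 1) (y, 0) := by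
  have hc : ContinuousOn (fun w : (ℝ × X) × ℂ => fill p φ u (γ w.1.1) (w.1.2, w.2))
      ((Icc 0 1 ×ˢ closure V) ×ˢ closedBall (0 : ℂ) 1) := by
    refine continuousOn_polar
      (f := fun (a : ℝ × X) r t => (1 - r) • Φ p φ u a.2 + r • γ a.1 a.2 t)
      (isCompact_Icc.prod D.compact_clV) ?_
      ⟨fun a ha r _ => by simp [h01 a.1 ha.1 a.2 ha.2], fun a _ t _ => by simp⟩
    let K : Set ((ℝ × X) × ℝ × ℝ) :=
      (Icc (0 : ℝ) 1 ×ˢ closure V) ×ˢ Icc (0 : ℝ) 1 ×ˢ Icc (0 : ℝ) 1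
    have h1 : ContinuousOn (fun w : (ℝ × X) × ℝ × ℝ => Φ p φ u w.1.2) K :=
      D.continuousOn_Φ.comp (continuous_snd.comp continuous_fst).continuousOn
        fun w (hw : w ∈ K) => D.hVC hw.1.2
    have h2 : ContinuousOn (fun w : (ℝ × X) × ℝ × ℝ => γ w.1.1 w.1.2 w.2.2) K :=
      hγ.comp (f := fun w : (ℝ × X) × ℝ × ℝ => (w.1.1, w.1.2, w.2.2)) (by fun_prop)
        fun w (hw : w ∈ K) => ⟨hw.1.1, hw.1.2, hw.2.2⟩
    exact continuousOn_lerp (continuous_fst.comp continuous_snd).continuousOn h1 h2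
  refine degree_homotopy_on (D.hV.prod isOpen_ball) (D.bddV.prod isBounded_ball)
    (F := fun s => fill p φ u (γ s)) ?_ ?_
  · have hmaps : MapsTo (fun w : ℝ × X × ℂ => ((w.1, w.2.1), w.2.2))
        (Icc (0 : ℝ) 1 ×ˢ frontier (V ×ˢ ball (0 : ℂ) 1))
        ((Icc 0 1 ×ˢ closure V) ×ˢ closedBall (0 : ℂ) 1) := fun w hw =>
      ⟨⟨hw.1, (frontier_cyl hw.2).1⟩, mem_closedBall_zero_iff.2 (frontier_cyl hw.2).2.1⟩
    have h := hc.comp (f := fun w : ℝ × X × ℂ => ((w.1, w.2.1), w.2.2)) (by fun_prop) hmaps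
    exact h
  · intro s hs z hz he
    obtain ⟨h1, h2, h3 | h3⟩ := frontier_cyl hz
    · have := congrArg Prod.fst he
      simp only [fill, Φ, Prod.fst_add, Prod.smul_fst] at this
      exact hb s hs z.1 h3 _ (turn_mem _) _ ⟨norm_nonneg _, h2⟩ this
    · simp only [fill, h3, sub_self, zero_smul, one_smul, zero_add] at he
      exact hne s hs z.1 h1 _ (turn_mem _) he

/-- The index of the piece containing a parameter. -/
def piece (N : ℕ) (t : ℝ) : ℕ := min ⌊(N : ℝ) * t⌋₊ (N - 1)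

omit [NormedAddCommGroup X] [NormedSpace ℝ X] [FiniteDimensional ℝ X] [Nontrivial X] D in
lemma piece_spec {N : ℕ} (hN : N ≠ 0) {t : ℝ} (ht : t ∈ Icc (0 : ℝ) 1) :
    piece N t < N ∧ (N : ℝ) * t - piece N t ∈ Icc (0 : ℝ) 1 := by
  have h0 : (0 : ℝ) ≤ N * t := mul_nonneg (Nat.cast_nonneg _) ht.1
  have h1 := Nat.floor_le h0
  have h2 := Nat.lt_floor_add_one ((N : ℝ) * t)
  refine ⟨lt_of_le_of_lt (min_le_right _ _) (Nat.pred_lt hN), ?_, ?_⟩
  · have : (piece N t : ℝ) ≤ ⌊(N : ℝ) * t⌋₊ := by exact_mod_cast min_le_left _ _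
    linarith
  · rcases le_total ⌊(N : ℝ) * t⌋₊ (N - 1) with h | h
    · rw [piece, min_eq_left h]; linarith
    · rw [piece, min_eq_right h, Nat.cast_sub (Nat.one_le_iff_ne_zero.2 hN)]
      push_cast
      nlinarith [ht.2, (Nat.cast_nonneg N : (0:ℝ) ≤ N)]

/-- The polygon through the iterates of `x`. -/
def poly (A : ℕ → X → X) (N : ℕ) (x : X) (t : ℝ) : X :=
  A (piece N t) (seg A x ((N : ℝ) * t - piece N t))

omit [FiniteDimensional ℝ X] [Nontrivial X] in
lemma poly_eq {N : ℕ} (hN : N ≠ 0) {x : X} (hx : x ∈ closure V) {i : ℕ} (hi : i < N) {t : ℝ}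
    (ht : t ∈ Icc ((i : ℝ) / N) ((i + 1 : ℝ) / N)) :
    poly A N x t = A i (seg A x ((N : ℝ) * t - i)) := by
  have hN' : (0 : ℝ) < N := by exact_mod_cast Nat.pos_of_ne_zero hN
  have ht1 : (i : ℝ) ≤ N * t := by have := ht.1; rw [div_le_iff₀ hN'] at this; linarith
  have ht2 : (N : ℝ) * t ≤ i + 1 := by have := ht.2; rw [le_div_iff₀ hN'] at this; linarith
  rcases ht2.eq_or_lt with he | hlt
  · by_cases hlast : i + 1 = N
    · have : piece N t = i := by
        rw [piece, he, show ((i : ℝ) + 1) = ((i + 1 : ℕ) : ℝ) by push_cast; ring,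
          Nat.floor_natCast, hlast, min_eq_right (Nat.sub_le _ _)]
        omega
      rw [poly, this]
    · have : piece N t = i + 1 := by
        rw [piece, he, show ((i : ℝ) + 1) = ((i + 1 : ℕ) : ℝ) by push_cast; ring,
          Nat.floor_natCast, min_eq_left (by omega)]
      rw [poly, this, he]
      push_cast
      simp [seg, D.hcomp i x hx]
  · have : piece N t = i := by
      rw [piece, (Nat.floor_eq_iff (le_trans (Nat.cast_nonneg _) ht1)).2 ⟨ht1, hlt⟩,
        min_eq_left (by omega)]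
    rw [poly, this]

omit [FiniteDimensional ℝ X] [Nontrivial X] in
lemma continuousOn_poly {N : ℕ} (hN : N ≠ 0) :
    ContinuousOn (fun w : X × ℝ => poly A N w.1 w.2) (closure V ×ˢ Icc 0 1) := by
  have hN' : (0 : ℝ) < N := by exact_mod_cast Nat.pos_of_ne_zero hN
  let P : Fin N → Set (X × ℝ) := fun i =>
    closure V ×ˢ Icc (((i : ℕ) : ℝ) / N) ((((i : ℕ) : ℝ) + 1) / N)
  have hsub : closure V ×ˢ Icc (0 : ℝ) 1 ⊆ ⋃ i, P i := by
    rintro ⟨x, t⟩ ⟨hx, ht⟩
    obtain ⟨h1, h2, h3⟩ := piece_spec hN ht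
    refine mem_iUnion.2 ⟨⟨piece N t, h1⟩, hx, ?_, ?_⟩
    · rw [div_le_iff₀ hN']; linarith
    · rw [le_div_iff₀ hN']; linarith
  refine ContinuousOn.mono ?_ hsub
  refine (locallyFinite_of_finite P).continuousOn_iUnion
    (fun i => isClosed_closure.prod isClosed_Icc) fun i => ?_
  refine ContinuousOn.congr ?_ fun w hw => D.poly_eq hN hw.1 i.2 hw.2
  have hseg : ContinuousOn (fun w : X × ℝ => seg A w.1 ((N : ℝ) * w.2 - (i : ℕ))) (P i) :=
    ContinuousOn.add (ContinuousOn.smul (by fun_prop) continuousOn_fst)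
      (ContinuousOn.smul (by fun_prop) ((D.hA 1).comp continuousOn_fst fun w hw => D.hVC hw.1))
  refine (D.hA i).comp hseg fun w hw => D.seg_mem hw.1 ?_
  have h1 := hw.2.1
  have h2 := hw.2.2
  rw [div_le_iff₀ hN'] at h1
  rw [le_div_iff₀ hN'] at h2
  exact ⟨by linarith, by linarith⟩

/-- The basic loop degree vanishes. -/
theorem degree_loop_eq_zero {j : ℕ}
    (hsmall : ∀ x ∈ closure V, ∀ t ∈ Icc (0 : ℝ) 1, ∀ s ∈ Icc (0 : ℝ) 1,
      (1 - s) • Φ p φ u x + s • Φ p φ u ((1 - t) • x + t • A (p ^ j) x) ≠ (y, 0))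
    (hb : ∀ x ∈ frontier V, ∀ i, i < p ^ j → ∀ τ ∈ Icc (0 : ℝ) 1, ∀ t ∈ Icc (0 : ℝ) 1,
      ∀ s ∈ Icc (0 : ℝ) 1, ∀ r ∈ Icc (0 : ℝ) 1,
        (1 - r) • φ x + r • φ ((1 - s) • A i (seg A x τ) + s • ((1 - t) • x + t • A (p ^ j) x))
          ≠ y) :
    degree (fill p φ u fun x t => Φ p φ u (seg A x t)) (V ×ˢ ball (0 : ℂ) 1) (y, 0) = 0 := by
  set N := p ^ j
  have hN : N ≠ 0 := pow_ne_zero _ D.pne
  have hN' : (0 : ℝ) < N := by exact_mod_cast Nat.pos_of_ne_zero hN
  let L : X → ℝ → X := fun x t => (1 - t) • x + t • A N x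
  have hLC : ∀ x ∈ closure V, ∀ t ∈ Icc (0 : ℝ) 1, L x t ∈ C := fun x hx t ht =>
    D.hconv (D.hVC hx) (D.iter_mem hx N) (by linarith [ht.2]) ht.1 (by ring)
  have hLc : ContinuousOn (fun w : X × ℝ => L w.1 w.2) (closure V ×ˢ Icc 0 1) :=
    continuousOn_lerp continuousOn_snd continuousOn_fst
      ((D.hA N).comp continuousOn_fst fun w hw => D.hVC hw.1)
  have hPC : ∀ x ∈ closure V, ∀ t ∈ Icc (0 : ℝ) 1, poly A N x t ∈ C := fun x hx t ht =>
    D.hP _ x hx _ (piece_spec hN ht).2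
  let γ : ℝ → X → ℝ → X × ℂ := fun s x t =>
    Φ p φ u ((1 - s) • poly A N x t + s • L x t)
  have hγC : ∀ s ∈ Icc (0 : ℝ) 1, ∀ x ∈ closure V, ∀ t ∈ Icc (0 : ℝ) 1,
      (1 - s) • poly A N x t + s • L x t ∈ C := fun s hs x hx t ht =>
    D.hconv (hPC x hx t ht) (hLC x hx t ht) (by linarith [hs.2]) hs.1 (by ring)
  have hp0 : ∀ x ∈ closure V, poly A N x 0 = x := fun x hx => by
    rw [D.poly_eq hN hx (Nat.pos_of_ne_zero hN) (by simp)]
    simp [seg, D.hA0 x (D.hVC hx)]
  have hp1 : ∀ x ∈ closure V, poly A N x 1 = A N x := fun x hx => by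
    have hi : N - 1 < N := Nat.pred_lt hN
    have hc : ((N - 1 : ℕ) : ℝ) = (N : ℝ) - 1 := by
      rw [Nat.cast_sub (Nat.one_le_iff_ne_zero.2 hN), Nat.cast_one]
    rw [D.poly_eq hN hx hi ⟨by rw [hc, div_le_one hN']; linarith, by rw [hc]; simp [hN'.ne']⟩]
    simp only [hc, seg, mul_one, sub_sub_cancel, sub_self, zero_smul, one_smul, zero_add]
    rw [D.hcomp _ x hx, Nat.sub_add_cancel (Nat.one_le_iff_ne_zero.2 hN)]
  have hΦN : ∀ x ∈ closure V, Φ p φ u (A N x) = Φ p φ u x := fun x hx =>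
    D.Φ_iter (D.hVC hx) (D.iter_mem hx N)
  -- step 1: polygon loop equals straight loop
  have e1 : degree (fill p φ u fun x t => Φ p φ u (poly A N x t)) (V ×ˢ ball (0 : ℂ) 1) (y, 0)
      = degree (fill p φ u fun x t => Φ p φ u (L x t)) (V ×ˢ ball (0 : ℂ) 1) (y, 0) := by
    have h := D.fill_homotopy (γ := γ) ?_ ?_ ?_ ?_
    · simpa [γ] using h
    · refine D.continuousOn_Φ.comp ?_ fun w hw => hγC w.1 hw.1 w.2.1 hw.2.1 w.2.2 hw.2.2
      exact continuousOn_lerp continuousOn_fst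
        ((D.continuousOn_poly hN).comp continuousOn_snd fun w hw => hw.2)
        (hLc.comp continuousOn_snd fun w hw => hw.2)
    · intro s _ x hx
      show Φ p φ u _ = Φ p φ u _
      rw [hp0 x hx, hp1 x hx]
      simp only [L, sub_zero, one_smul, zero_smul, add_zero, sub_self, zero_add, ← add_smul,
        sub_add_cancel]
      exact (hΦN x hx).symm
    · exact fun s hs x hx t ht => D.Φ_ne (hγC s hs x hx t ht)
    · intro s hs x hx t ht r hr
      exact hb x hx _ (piece_spec hN ht).1 _ (piece_spec hN ht).2 t ht s hs r hr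
  -- step 2: the straight loop is null
  have e2 : degree (fill p φ u fun x t => Φ p φ u (L x t)) (V ×ˢ ball (0 : ℂ) 1) (y, 0) = 0 := by
    have h := D.fill_homotopy (γ := fun s x t => (1 - s) • Φ p φ u (L x t) + s • Φ p φ u x)
      ?_ ?_ ?_ ?_
    · simp only [sub_zero, one_smul, zero_smul, add_zero, sub_self, zero_add] at h
      rw [h]
      refine degree_eq_zero_on (D.hV.prod isOpen_ball) (D.bddV.prod isBounded_ball) ?_ ?_
      · rw [closure_cyl]
        exact D.continuousOn_fill (D.continuousOn_Φ.comp continuousOn_fst fun w hw => D.hVC hw.1)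
          fun x _ => rfl
      · rw [closure_cyl]
        intro z hz
        have : fill p φ u (fun x _ => Φ p φ u x) z = Φ p φ u z.1 := by
          simp [fill, ← add_smul]
        rw [this]
        exact D.Φ_ne (D.hVC hz.1)
    · exact continuousOn_lerp continuousOn_fst
        (D.continuousOn_Φ.comp (hLc.comp continuousOn_snd fun w hw => hw.2)
          fun w hw => hLC _ hw.2.1 _ hw.2.2)
        (D.continuousOn_Φ.comp (continuous_fst.comp continuous_snd).continuousOn
          fun w hw => D.hVC hw.2.1)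
    · intro s _ x hx
      simp [L, hΦN x hx]
    · intro s hs x hx t ht he
      exact hsmall x hx t ht (1 - s) ⟨by linarith [hs.2], by linarith [hs.1]⟩
        (by rw [sub_sub_cancel, add_comm]; exact he)
    · intro s hs x hx t ht r hr he
      refine hb x hx 0 (Nat.pos_of_ne_zero hN) 0 (by simp) t ht 1 (by simp) (r * (1 - s))
        ⟨mul_nonneg hr.1 (by linarith [hs.2]),
          mul_le_one₀ hr.2 (by linarith [hs.2]) (by linarith [hs.1])⟩ ?_
      rw [← he]
      simp only [L, Φ, Prod.fst_add, Prod.smul_fst, sub_self, zero_smul, one_smul, zero_add]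
      module
  -- step 3: the polygon loop is the `N`-fold basic loop
  set G := fill p φ u fun x t => Φ p φ u (seg A x t)
  have hGc : ContinuousOn G (closure V ×ˢ closedBall (0 : ℂ) 1) := by
    refine D.continuousOn_fill ?_ fun x hx => ?_
    · exact D.continuousOn_Φ.comp D.continuousOn_seg fun w hw => D.seg_mem hw.1 hw.2
    · show Φ p φ u (seg A x 0) = Φ p φ u (seg A x 1)
      simp [seg, D.Φ_iter (D.hVC hx) (D.iter_mem hx 1)]
  have hturn : ∀ z : ℂ, ‖z‖ ≠ 0 → ∀ x ∈ closure V,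
      Φ p φ u (seg A x (turn (z ^ N))) = Φ p φ u (poly A N x (turn z)) := by
    intro z hz x hx
    obtain ⟨h1, h2⟩ := piece_spec hN (turn_mem z)
    set k := piece N (turn z)
    rw [poly, D.Φ_iter (D.seg_mem hx h2) (D.hP _ x hx _ h2)]
    have he : polar (‖z‖ ^ N) ((N : ℝ) * turn z - k) = polar (‖z‖ ^ N) (turn (z ^ N)) := by
      have hA := polar_turn (z ^ N)
      rw [norm_pow] at hA
      rw [hA]
      conv_rhs => rw [← polar_turn z]
      rw [polar_eq_mul, polar_eq_mul, mul_pow, circ_pow, Complex.ofReal_pow]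
      congr 1
      have : circ (k : ℝ) = 1 := by
        rw [circ]; push_cast
        exact Complex.exp_eq_one_iff.2 ⟨k, by push_cast; ring⟩
      calc circ ((N : ℝ) * turn z - k) = circ ((N : ℝ) * turn z - k) * circ (k : ℝ) := by
            rw [this, mul_one]
        _ = _ := by rw [← circ_add, sub_add_cancel]
    have hpos : (0 : ℝ) < ‖z‖ ^ N := pow_pos ((norm_nonneg z).lt_of_ne' hz) N
    rcases polar_eq_polar hpos h2 ⟨Int.fract_nonneg _, Int.fract_lt_one _⟩ he with h | ⟨ha, hb'⟩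
    · rw [h]; rfl
    · rw [ha, show turn (z ^ N) = 0 from hb']
      simp [seg, D.Φ_iter (D.hVC hx) (D.iter_mem hx 1)]
  have hG1 : ∀ z ∈ frontier (V ×ˢ ball (0 : ℂ) 1), G z ≠ (y, 0) := by
    intro z hz he
    obtain ⟨h1, h2, h3 | h3⟩ := frontier_cyl hz
    · have h := congrArg Prod.fst he
      simp only [G, fill, Φ, Prod.fst_add, Prod.smul_fst] at h
      have := hb z.1 h3 0 (Nat.pos_of_ne_zero hN) _ (turn_mem z.2) 0 (by simp) 0 (by simp)
        _ ⟨norm_nonneg _, h2⟩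
      simp only [D.hA0 _ (D.seg_mem h1 (turn_mem z.2)), sub_zero, one_smul, zero_smul,
        add_zero] at this
      exact this h
    · simp only [G, fill, h3, sub_self, zero_smul, one_smul, zero_add] at he
      exact D.Φ_ne (D.seg_mem h1 (turn_mem _)) he
  have e3 : degree (fill p φ u fun x t => Φ p φ u (poly A N x t)) (V ×ˢ ball (0 : ℂ) 1) (y, 0)
      = N * degree G (V ×ˢ ball (0 : ℂ) 1) (y, 0) := by
    rw [← degree_pre_on D.hV D.bddV hN hGc hG1]
    refine degree_congr_on (D.hV.prod isOpen_ball) (D.bddV.prod isBounded_ball) ?_ ?_ ?_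
    · refine (D.continuousOn_fill ?_ fun x hx => ?_).mono
        (frontier_subset_closure.trans closure_cyl.subset)
      · exact D.continuousOn_Φ.comp (D.continuousOn_poly hN) fun w hw => hPC _ hw.1 _ hw.2
      · show Φ p φ u _ = Φ p φ u _
        rw [hp0 x hx, hp1 x hx, hΦN x hx]
    · refine hGc.comp (by fun_prop) fun z hz => ⟨(frontier_cyl hz).1, ?_⟩
      simpa [norm_pow] using pow_le_one₀ (norm_nonneg _) (frontier_cyl hz).2.1
    · intro z hz s hs he
      obtain ⟨h1, h2, h3 | h3⟩ := frontier_cyl hz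
      · by_cases hz0 : ‖z.2‖ = 0
        · have h0 : z.2 = 0 := norm_eq_zero.1 hz0
          simp [G, fill, h0, zero_pow hN, ← add_smul] at he
          exact D.Φ_ne (D.hVC h1) he
        · have hh := congrArg Prod.fst he
          simp only [G, fill, norm_pow, hturn _ hz0 _ h1, Φ, Prod.fst_add, Prod.smul_fst] at hh
          have ht := piece_spec hN (turn_mem z.2)
          refine hb z.1 h3 _ ht.1 _ ht.2 0 (by simp) 0 (by simp)
            ((1 - s) * ‖z.2‖ + s * ‖z.2‖ ^ N) ⟨?_, ?_⟩ ?_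
          · have := norm_nonneg z.2
            have := pow_nonneg this N
            nlinarith [hs.1, hs.2]
          · have := pow_le_one₀ (norm_nonneg z.2) h2 (n := N)
            nlinarith [hs.1, hs.2]
          · rw [← hh]
            have : φ (seg A z.1 (turn (z.2 ^ N))) = φ (poly A N z.1 (turn z.2)) :=
              congrArg Prod.fst (hturn _ hz0 _ h1)
            simp only [poly, this, sub_zero, one_smul, zero_smul, add_zero]
            module
      · simp only [G, fill, norm_pow, h3, one_pow, sub_self, zero_smul, one_smul, zero_add,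
          hturn _ (by rw [h3]; exact one_ne_zero) _ h1, ← add_smul, sub_add_cancel] at he
        exact D.Φ_ne (hPC _ h1 _ (turn_mem _)) he
  have := e3.symm.trans (e1.trans e2)
  rcases mul_eq_zero.1 this with h | h
  · exact absurd (by exact_mod_cast h) hN
  · exact h

/-- Radial schedule. -/
def rad (r : ℝ) : ℝ := max 0 (min 1 (6 * r - 1))

/-- Time schedule, waiting at both ends. -/
def wait (t : ℝ) : ℝ := max 0 (min 1 (2 * t - 1 / 2))

/-- The first coordinate of the model map. -/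
def mfst (φ : X → X) (A : ℕ → X → X) (x : X) (r t : ℝ) : X :=
  (1 - rad r) • φ x + rad r • φ (seg A x (wait t))

/-- The twisted equivariant function of the model map. -/
def mv (p : ℕ) (u : X → ℂ) (A : ℕ → X → X) (x : X) (r t : ℝ) : ℂ :=
  (1 - rad r : ℝ) * u x + (rad r : ℝ) * (circ (-(wait t) / p) * u (seg A x (wait t)))

omit [NormedAddCommGroup X] [NormedSpace ℝ X] [FiniteDimensional ℝ X] [Nontrivial X] D in
lemma rad_mem (r : ℝ) : rad r ∈ Icc (0 : ℝ) 1 :=
  ⟨le_max_left _ _, max_le zero_le_one (min_le_left _ _)⟩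

omit [NormedAddCommGroup X] [NormedSpace ℝ X] [FiniteDimensional ℝ X] [Nontrivial X] D in
lemma wait_mem (r : ℝ) : wait r ∈ Icc (0 : ℝ) 1 :=
  ⟨le_max_left _ _, max_le zero_le_one (min_le_left _ _)⟩

omit [NormedAddCommGroup X] [NormedSpace ℝ X] [FiniteDimensional ℝ X] [Nontrivial X] D in
lemma wait_zero : wait 0 = 0 := by norm_num [wait]

omit [NormedAddCommGroup X] [NormedSpace ℝ X] [FiniteDimensional ℝ X] [Nontrivial X] D in
lemma wait_one : wait 1 = 1 := by norm_num [wait]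

omit [NormedAddCommGroup X] [NormedSpace ℝ X] [FiniteDimensional ℝ X] [Nontrivial X] D in
lemma rad_zero : rad 0 = 0 := by norm_num [rad]

omit [FiniteDimensional ℝ X] [Nontrivial X] in
lemma twist_one {x : X} (hx : x ∈ closure V) :
    circ (-1 / p) * u (A 1 x) = u x := by
  rw [D.huA 1 x (D.hVC hx) (D.iter_mem hx 1), ← mul_assoc, ← circ_add]
  simp [neg_div, circ_zero]

omit [FiniteDimensional ℝ X] [Nontrivial X] in
lemma model_compat : PolarCompat (fun x r t => (mfst φ A x r t, mv p u A x r t)) (closure V) := by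
  refine ⟨fun x hx r _ => ?_, fun x _ t _ => ?_⟩
  · have h1 := D.hφA 1 x (D.hVC hx) (D.iter_mem hx 1)
    simp [mfst, mv, wait_zero, wait_one, seg, h1, circ_zero, D.twist_one hx]
  · simp [mfst, mv, rad_zero]

omit [Nontrivial X] in
lemma continuousOn_model : ContinuousOn
    (fun z : X × ℂ => (mfst φ A z.1 ‖z.2‖ (turn z.2), mv p u A z.1 ‖z.2‖ (turn z.2)))
    (closure V ×ˢ closedBall (0 : ℂ) 1) := by
  refine continuousOn_polar (f := fun x r t => (mfst φ A x r t, mv p u A x r t)) D.compact_clV ?_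
    D.model_compat
  have hs : ContinuousOn (fun w : X × ℝ × ℝ => seg A w.1 (wait w.2.2))
      (closure V ×ˢ Icc (0 : ℝ) 1 ×ˢ Icc (0 : ℝ) 1) := by
    refine ContinuousOn.add (ContinuousOn.smul ?_ continuousOn_fst) (ContinuousOn.smul ?_ ?_)
    · unfold wait; fun_prop
    · unfold wait; fun_prop
    · exact (D.hA 1).comp continuousOn_fst fun w hw => D.hVC hw.1
  have hm : ∀ w ∈ closure V ×ˢ Icc (0 : ℝ) 1 ×ˢ Icc (0 : ℝ) 1,
      seg A w.1 (wait w.2.2) ∈ C := fun w hw => D.seg_mem hw.1 (wait_mem _)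
  have hf := D.hφ.comp continuousOn_fst fun (w : X × ℝ × ℝ)
    (hw : w ∈ closure V ×ˢ Icc (0 : ℝ) 1 ×ˢ Icc (0 : ℝ) 1) => D.hVC hw.1
  have hg := D.hu.comp continuousOn_fst fun (w : X × ℝ × ℝ)
    (hw : w ∈ closure V ×ˢ Icc (0 : ℝ) 1 ×ˢ Icc (0 : ℝ) 1) => D.hVC hw.1
  have hR : Continuous fun w : X × ℝ × ℝ => rad w.2.1 := by unfold rad; fun_prop
  have hC1 : Continuous fun w : X × ℝ × ℝ => circ (-(wait w.2.2) / p) := by
    unfold wait; fun_prop
  exact ((hf.const_smul (1 : ℝ)).congr (fun _ _ => by simp) |> fun hf' =>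
    ((continuousOn_const.sub hR.continuousOn).smul hf').add
      (hR.continuousOn.smul (D.hφ.comp hs hm))).prodMk
    (((Complex.continuous_ofReal.comp (continuous_const.sub hR)).continuousOn.mul hg).add
      ((Complex.continuous_ofReal.comp hR).continuousOn.mul
        (hC1.continuousOn.mul (D.hu.comp hs hm))))

omit [FiniteDimensional ℝ X] [Nontrivial X] in
lemma mfst_ne {x : X} (hx : x ∈ frontier V)
    (hb : ∀ τ ∈ Icc (0 : ℝ) 1, ∀ r ∈ Icc (0 : ℝ) 1,
      (1 - r) • φ x + r • φ (seg A x τ) ≠ y) (r t : ℝ) : mfst φ A x r t ≠ y :=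
  hb _ (wait_mem t) _ (rad_mem r)

omit [FiniteDimensional ℝ X] [Nontrivial X] in
lemma mv_ne {x : X} (hx : x ∈ closure V) {r t : ℝ} (hR : rad r = 0 ∨ rad r = 1)
    (he : mfst φ A x r t = y) : mv p u A x r t ≠ 0 := by
  rcases hR with h | h
  · simp [mfst, h] at he
    simpa [mv, h] using D.hy x (D.hVC hx) he
  · simp [mfst, h] at he
    simpa [mv, h, circ_ne_zero] using D.hy _ (D.seg_mem hx (wait_mem t)) he

/-- The basic loop degree is `1` modulo `p`, so it cannot vanish. -/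
theorem degree_loop_ne_zero
    (hb : ∀ x ∈ frontier V, ∀ τ ∈ Icc (0 : ℝ) 1, ∀ r ∈ Icc (0 : ℝ) 1,
      (1 - r) • φ x + r • φ (seg A x τ) ≠ y)
    (hdeg : degree φ V y = 1) :
    degree (fill p φ u fun x t => Φ p φ u (seg A x t)) (V ×ˢ ball (0 : ℂ) 1) (y, 0) ≠ 0 := by
  set Ω := V ×ˢ ball (0 : ℂ) 1
  have hΩ : IsOpen Ω := D.hV.prod isOpen_ball
  have hΩb : Bornology.IsBounded Ω := D.bddV.prod isBounded_ball
  have hclΩ : closure Ω = closure V ×ˢ closedBall (0 : ℂ) 1 := closure_cyl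
  have hp0 : (p : ℝ) ≠ 0 := by exact_mod_cast D.pne
  have hsegc : ContinuousOn (fun w : X × ℝ => seg A w.1 w.2) (closure V ×ˢ Icc 0 1) :=
    ContinuousOn.add (ContinuousOn.smul (by fun_prop) continuousOn_fst)
      (ContinuousOn.smul (by fun_prop) ((D.hA 1).comp continuousOn_fst fun w hw => D.hVC hw.1))
  have hwaitc : Continuous wait := by unfold wait; fun_prop
  have hradc : Continuous rad := by unfold rad; fun_prop
  -- reparametrise the loop
  have e1 : degree (fill p φ u fun x t => Φ p φ u (seg A x t)) Ω (y, 0)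
      = degree (fill p φ u fun x t => Φ p φ u (seg A x (wait t))) Ω (y, 0) := by
    have hm : ∀ s ∈ Icc (0 : ℝ) 1, ∀ t ∈ Icc (0 : ℝ) 1,
        (1 - s) * t + s * wait t ∈ Icc (0 : ℝ) 1 := fun s hs t ht =>
      (convex_Icc (0 : ℝ) 1) ht (wait_mem t) (by linarith [hs.2]) hs.1 (by ring)
    have h := D.fill_homotopy (γ := fun s x t => Φ p φ u (seg A x ((1 - s) * t + s * wait t)))
      ?_ ?_ ?_ ?_
    · simpa using h
    · exact D.continuousOn_Φ.comp (hsegc.comp
        (by fun_prop : ContinuousOn (fun w : ℝ × X × ℝ =>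
          (w.2.1, (1 - w.1) * w.2.2 + w.1 * wait w.2.2)) _)
        fun w hw => ⟨hw.2.1, hm _ hw.1 _ hw.2.2⟩)
        fun w hw => D.seg_mem hw.2.1 (hm _ hw.1 _ hw.2.2)
    · intro s _ x hx
      simp [wait_zero, wait_one, seg, D.Φ_iter (D.hVC hx) (D.iter_mem hx 1)]
    · exact fun s hs x hx t ht => D.Φ_ne (D.seg_mem hx (hm s hs t ht))
    · exact fun s hs x hx t ht r hr => hb x hx _ (hm s hs t ht) r hr
  let M : X × ℂ → X × ℂ := fun z =>
    (mfst φ A z.1 ‖z.2‖ (turn z.2), mv p u A z.1 ‖z.2‖ (turn z.2))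
  have hM : ContinuousOn M (closure V ×ˢ closedBall (0 : ℂ) 1) := D.continuousOn_model
  -- the family twisting the phase
  let W : ℝ → X → ℝ → ℝ → X × ℂ := fun s x r t =>
    (mfst φ A x r t, (r : ℂ) * circ ((1 - s) * wait t + s * t) * mv p u A x r t ^ p)
  have hWcompat : ∀ s, PolarCompat (W s) (closure V) := by
    intro s
    refine ⟨fun x hx r hr => ?_, fun x hx t ht => ?_⟩
    · have h := D.model_compat.1 x hx r hr
      simp only [Prod.mk.injEq] at h
      simp [W, h.1, h.2, wait_zero, wait_one, circ_zero, circ_one]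
    · have h := D.model_compat.2 x hx t ht
      simp only [Prod.mk.injEq] at h
      simp [W, h.1]
  have hK : ContinuousOn
      (fun w : (ℝ × X) × ℂ => W w.1.1 w.1.2 ‖w.2‖ (turn w.2))
      ((Icc 0 1 ×ˢ closure V) ×ˢ closedBall (0 : ℂ) 1) := by
    refine continuousOn_polar (f := fun (a : ℝ × X) r t => W a.1 a.2 r t)
      (isCompact_Icc.prod D.compact_clV) ?_
      ⟨fun a ha r hr => (hWcompat a.1).1 a.2 ha.2 r hr,
        fun a ha t ht => (hWcompat a.1).2 a.2 ha.2 t ht⟩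
    have hseg' : ContinuousOn (fun w : (ℝ × X) × ℝ × ℝ => seg A w.1.2 (wait w.2.2))
        ((Icc 0 1 ×ˢ closure V) ×ˢ Icc (0 : ℝ) 1 ×ˢ Icc (0 : ℝ) 1) :=
      hsegc.comp (by fun_prop : ContinuousOn
        (fun w : (ℝ × X) × ℝ × ℝ => (w.1.2, wait w.2.2)) _) fun w hw => ⟨hw.1.2, wait_mem _⟩
    have h1 := D.hφ.comp (by fun_prop : ContinuousOn (fun w : (ℝ × X) × ℝ × ℝ => w.1.2)
      ((Icc 0 1 ×ˢ closure V) ×ˢ Icc (0 : ℝ) 1 ×ˢ Icc (0 : ℝ) 1)) fun w hw => D.hVC hw.1.2
    have h2 := D.hu.comp (by fun_prop : ContinuousOn (fun w : (ℝ × X) × ℝ × ℝ => w.1.2)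
      ((Icc 0 1 ×ˢ closure V) ×ˢ Icc (0 : ℝ) 1 ×ˢ Icc (0 : ℝ) 1)) fun w hw => D.hVC hw.1.2
    have h3 := D.hφ.comp hseg' fun w hw => D.seg_mem hw.1.2 (wait_mem _)
    have h4 := D.hu.comp hseg' fun w hw => D.seg_mem hw.1.2 (wait_mem _)
    simp only [W, mfst, mv]
    refine ContinuousOn.prodMk ?_ ?_
    · exact ((by fun_prop : Continuous fun w : (ℝ × X) × ℝ × ℝ => 1 - rad w.2.1).continuousOn.smul
        h1).add ((by fun_prop : Continuous fun w : (ℝ × X) × ℝ × ℝ => rad w.2.1).continuousOn.smul h3)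
    · refine ContinuousOn.mul (by fun_prop) (ContinuousOn.pow ?_ p)
      exact ((by fun_prop : Continuous fun w : (ℝ × X) × ℝ × ℝ =>
        ((1 - rad w.2.1 : ℝ) : ℂ)).continuousOn.mul h2).add
        ((by fun_prop : Continuous fun w : (ℝ × X) × ℝ × ℝ => (rad w.2.1 : ℂ)).continuousOn.mul
          ((by fun_prop : Continuous fun w : (ℝ × X) × ℝ × ℝ =>
            circ (-(wait w.2.2) / p)).continuousOn.mul h4))
  have hWW : ∀ s, s ∈ Icc (0 : ℝ) 1 → ∀ z ∈ frontier Ω, W s z.1 ‖z.2‖ (turn z.2) ≠ (y, 0) := by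
    intro s hs z hz he
    simp only [W, Prod.mk.injEq] at he
    obtain ⟨h1, h2, h3 | h3⟩ := frontier_cyl hz
    · exact D.mfst_ne h3 (hb z.1 h3) _ _ he.1
    · have hR : rad ‖z.2‖ = 1 := by rw [h3]; norm_num [rad]
      simp [h3, circ_ne_zero, D.pne] at he
      rw [← h3] at he
      exact D.mv_ne h1 (Or.inr hR) he.1 he.2
  have e2 : degree (fill p φ u fun x t => Φ p φ u (seg A x (wait t))) Ω (y, 0)
      = degree (fun z : X × ℂ => W 0 z.1 ‖z.2‖ (turn z.2)) Ω (y, 0) := by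
    refine degree_congr_on hΩ hΩb ?_ ?_ ?_
    · refine (D.continuousOn_fill ?_ fun x hx => ?_).mono
        (frontier_subset_closure.trans hclΩ.subset)
      · exact D.continuousOn_Φ.comp (hsegc.comp
          (by fun_prop : ContinuousOn (fun w : X × ℝ => (w.1, wait w.2)) _)
          fun w hw => ⟨hw.1, wait_mem _⟩) fun w hw => D.seg_mem hw.1 (wait_mem _)
      · simp [wait_zero, wait_one, seg, D.Φ_iter (D.hVC hx) (D.iter_mem hx 1)]
    · have hmaps : MapsTo (fun z : X × ℂ => (((0 : ℝ), z.1), z.2)) (frontier Ω)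
          ((Icc 0 1 ×ˢ closure V) ×ˢ closedBall (0 : ℂ) 1) := fun z hz =>
        ⟨⟨by simp, (frontier_cyl hz).1⟩, mem_closedBall_zero_iff.2 (frontier_cyl hz).2.1⟩
      have h := hK.comp (f := fun z : X × ℂ => (((0 : ℝ), z.1), z.2)) (by fun_prop) hmaps
      exact h
    · intro z hz s hs he
      obtain ⟨h1, h2, h3 | h3⟩ := frontier_cyl hz
      · have h := congrArg Prod.fst he
        simp only [fill, Φ, W, mfst, Prod.fst_add, Prod.smul_fst] at h
        refine hb z.1 h3 _ (wait_mem (turn z.2)) ((1 - s) * ‖z.2‖ + s * rad ‖z.2‖) ⟨?_, ?_⟩ ?_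
        · nlinarith [hs.1, hs.2, norm_nonneg z.2, (rad_mem ‖z.2‖).1]
        · nlinarith [hs.1, hs.2, h2, (rad_mem ‖z.2‖).2]
        · rw [← h]; module
      · have hR : rad ‖z.2‖ = 1 := by rw [h3]; norm_num [rad]
        have hW : W 0 z.1 ‖z.2‖ (turn z.2) = Φ p φ u (seg A z.1 (wait (turn z.2))) := by
          rw [h3] at hR ⊢
          simp only [W, Φ, mfst, mv, hR, sub_self, zero_smul, one_smul, zero_add,
            Complex.ofReal_zero, zero_mul, Complex.ofReal_one, one_mul, mul_pow, circ_pow,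
            Prod.mk.injEq, sub_zero, add_zero, true_and]
          rw [← mul_assoc, ← circ_add]
          rw [show wait (turn z.2) + (p : ℝ) * (-(wait (turn z.2)) / p) = 0 by field_simp; ring,
            circ_zero, one_mul]
        rw [hW] at he
        simp only [fill, h3, sub_self, zero_smul, one_smul, zero_add, ← add_smul,
          sub_add_cancel] at he
        exact D.Φ_ne (D.seg_mem h1 (wait_mem _)) he
  have hK' : ContinuousOn (fun w : ℝ × X × ℂ => W w.1 w.2.1 ‖w.2.2‖ (turn w.2.2))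
      (Icc (0 : ℝ) 1 ×ˢ frontier Ω) := by
    have hmaps : MapsTo (fun w : ℝ × X × ℂ => ((w.1, w.2.1), w.2.2))
        (Icc (0 : ℝ) 1 ×ˢ frontier Ω)
        ((Icc 0 1 ×ˢ closure V) ×ˢ closedBall (0 : ℂ) 1) := fun w hw =>
      ⟨⟨hw.1, (frontier_cyl hw.2).1⟩, mem_closedBall_zero_iff.2 (frontier_cyl hw.2).2.1⟩
    have h := hK.comp (f := fun w : ℝ × X × ℂ => ((w.1, w.2.1), w.2.2)) (by fun_prop) hmaps
    exact h
  have e3 : degree (fun z : X × ℂ => W 0 z.1 ‖z.2‖ (turn z.2)) Ω (y, 0)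
      = degree (fun z : X × ℂ => W 1 z.1 ‖z.2‖ (turn z.2)) Ω (y, 0) :=
    degree_homotopy_on hΩ hΩb (F := fun s (z : X × ℂ) => W s z.1 ‖z.2‖ (turn z.2))
      hK'

      fun s hs z hz => hWW s hs z hz
  -- move the zero of the linear factor to `2/3`
  let a : ℂ := ((2 / 3 : ℝ) : ℂ)
  let Mf : X × ℂ → X × ℂ := fun z => ((M z).1, (z.2 - a) * (M z).2 ^ p)
  have hMf : ContinuousOn Mf (closure V ×ˢ closedBall (0 : ℂ) 1) :=
    hM.fst.prodMk ((continuous_snd.sub continuous_const).continuousOn.mul (hM.snd.pow p))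
  have hW1 : ∀ z : X × ℂ, W 1 z.1 ‖z.2‖ (turn z.2) = ((M z).1, z.2 * (M z).2 ^ p) := by
    intro z
    simp only [W, M, sub_self, zero_mul, zero_add, one_mul, ← polar_eq_mul, polar_turn]
  simp_rw [hW1] at e3
  have e4 : degree (fun z : X × ℂ => ((M z).1, z.2 * (M z).2 ^ p)) Ω (y, 0)
      = degree Mf Ω (y, 0) := by
    refine degree_congr_on hΩ hΩb ?_ (hMf.mono (frontier_subset_closure.trans hclΩ.subset)) ?_
    · exact (hM.fst.prodMk (continuous_snd.continuousOn.mul (hM.snd.pow p))).mono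
        (frontier_subset_closure.trans hclΩ.subset)
    · intro z hz s hs he
      simp only [Mf, Prod.smul_mk, Prod.mk_add_mk, Prod.mk.injEq, ← add_smul, sub_add_cancel,
        one_smul] at he
      obtain ⟨h1, h2, h3 | h3⟩ := frontier_cyl hz
      · exact D.mfst_ne h3 (hb z.1 h3) _ _ he.1
      · have hR : rad ‖z.2‖ = 1 := by rw [h3]; norm_num [rad]
        have hfac : (z.2 - (s : ℂ) * a) * (M z).2 ^ p = 0 := by
          rw [← he.2]; simp only [Complex.real_smul]; push_cast; ring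
        rcases mul_eq_zero.1 hfac with h | h
        · have : ‖z.2‖ = s * (2 / 3) := by
            rw [sub_eq_zero.1 h, norm_mul, Complex.norm_real, Complex.norm_real,
              Real.norm_eq_abs, Real.norm_eq_abs, abs_of_nonneg hs.1, abs_of_nonneg (by norm_num)]
          linarith [hs.2]
        · exact D.mv_ne h1 (Or.inr hR) he.1 (pow_eq_zero_iff D.pne |>.1 h)
  -- split the domain
  have hna : ‖a‖ = 2 / 3 := by
    rw [Complex.norm_real, Real.norm_eq_abs, abs_of_nonneg]; norm_num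
  have hbig : ∀ z : ℂ, ‖z - a‖ ≤ 1 / 8 → 13 / 24 ≤ ‖z‖ ∧ ‖z‖ ≤ 19 / 24 := fun z hz => by
    constructor
    · linarith [norm_le_norm_add_norm_sub z a]
    · linarith [norm_le_norm_add_norm_sub a z, norm_sub_rev a z]
  let Ω₁ := V ×ˢ ball (0 : ℂ) (1 / 2)
  let Ω₂ := V ×ˢ ball a (1 / 8)
  have hs2 : Ω₂ ⊆ Ω := fun z hz => ⟨hz.1, by
    have := hbig z.2 (le_of_lt (by simpa [dist_eq_norm] using hz.2))
    simp only [mem_ball, dist_zero_right]; linarith⟩
  have hs1 : Ω₁ ⊆ Ω := prod_mono le_rfl (ball_subset_ball (by norm_num))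
  have hd : Disjoint Ω₁ Ω₂ := by
    refine disjoint_left.2 fun z h1 h2 => ?_
    have := hbig z.2 (le_of_lt (by simpa [dist_eq_norm] using h2.2))
    have h1' : ‖z.2‖ < 1 / 2 := by simpa using h1.2
    linarith
  have e5 : degree Mf Ω (y, 0) = degree Mf Ω₁ (y, 0) + degree Mf Ω₂ (y, 0) := by
    refine degree_union_on hΩ hΩb (D.hV.prod isOpen_ball) (D.hV.prod isOpen_ball) hs1 hs2 hd
      (by rw [hclΩ]; exact hMf) ?_
    intro z hz hout he
    rw [hclΩ] at hz
    simp only [Mf, Prod.mk.injEq] at he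
    have hxV : z.1 ∈ V := mem_of_notMem_frontier D.hV hz.1 fun hf =>
      D.mfst_ne hf (hb z.1 hf) _ _ he.1
    rcases mul_eq_zero.1 he.2 with h | h
    · exact hout (Or.inr ⟨hxV, by simp [mem_ball, dist_eq_norm, sub_eq_zero.1 h]⟩)
    · have hlt : ‖z.2‖ < 1 / 2 := by
        by_contra hge
        push Not at hge
        refine D.mv_ne hz.1 (Or.inr ?_) he.1 (pow_eq_zero_iff D.pne |>.1 h)
        simp only [rad]
        rw [min_eq_left (by linarith), max_eq_right zero_le_one]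
      exact hout (Or.inl ⟨hxV, by simpa using hlt⟩)
  -- the inner part is divisible by `p`
  have hcl1 : closure Ω₁ ⊆ closure V ×ˢ closedBall (0 : ℂ) 1 := by
    rw [← hclΩ]; exact closure_mono hs1
  have hfr1 : ∀ z ∈ frontier Ω₁, M z ≠ (y, 0) ∧ ‖z.2‖ ≤ 1 / 2 := by
    intro z hz
    have hz' := hz
    rw [frontier_prod_eq, frontier_ball _ (by norm_num), closure_ball _ (by norm_num)] at hz'
    rcases hz' with ⟨h1, h2⟩ | ⟨h1, h2⟩
    · have h2' : ‖z.2‖ = 1 / 2 := by simpa using h2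
      refine ⟨fun he => ?_, h2'.le⟩
      simp only [M, Prod.mk.injEq] at he
      exact D.mv_ne h1 (Or.inr (by rw [h2']; norm_num [rad])) he.1 he.2
    · refine ⟨fun he => ?_, by simpa using h2⟩
      simp only [M, Prod.mk.injEq] at he
      exact D.mfst_ne h1 (hb z.1 h1) _ _ he.1
  have e6 : degree Mf Ω₁ (y, 0) = (p : ℤ) * degree M Ω₁ (y, 0) := by
    rw [← degree_post_on (D.hV.prod isOpen_ball) (D.bddV.prod isBounded_ball)
      (c := -a) (by rw [neg_ne_zero]; exact norm_ne_zero_iff.1 (by rw [hna]; norm_num)) D.pne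
      (hM.mono (frontier_subset_closure.trans hcl1)) fun z hz => (hfr1 z hz).1]
    refine degree_congr_on (D.hV.prod isOpen_ball) (D.bddV.prod isBounded_ball)
      (hMf.mono (frontier_subset_closure.trans hcl1)) ?_ ?_
    · exact (hM.fst.prodMk (continuousOn_const.mul (hM.snd.pow p))).mono
        (frontier_subset_closure.trans hcl1)
    · intro z hz s hs he
      obtain ⟨hne, hz2⟩ := hfr1 z hz
      simp only [Mf, Prod.smul_mk, Prod.mk_add_mk, Prod.mk.injEq, ← add_smul, sub_add_cancel,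
        one_smul] at he
      have hfac : (((1 - s : ℝ) : ℂ) * z.2 - a) * (M z).2 ^ p = 0 := by
        rw [← he.2]; simp only [Complex.real_smul]; push_cast; ring
      rcases mul_eq_zero.1 hfac with h | h
      · have : ‖a‖ ≤ 1 / 2 := by
          rw [← sub_eq_zero.1 h, norm_mul, Complex.norm_real, Real.norm_eq_abs,
            abs_of_nonneg (by linarith [hs.2])]
          nlinarith [hs.1, norm_nonneg z.2]
        linarith
      · exact hne (Prod.ext he.1 (pow_eq_zero_iff D.pne |>.1 h))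
  -- the outer part has degree one
  have hsub2 : closure V ×ˢ closedBall a (1 / 8) ⊆ closure V ×ˢ closedBall (0 : ℂ) 1 := by
    refine prod_mono le_rfl fun z hz => ?_
    have := hbig z (by simpa [dist_eq_norm] using hz)
    simp only [mem_closedBall, dist_zero_right]; linarith
  have hwait : ∀ z ∈ closedBall a (1 / 8 : ℝ), wait (turn z) = 0 ∨ wait (turn z) = 1 := by
    intro z hz
    have hz' : ‖z - a‖ ≤ 1 / 8 := by simpa [dist_eq_norm] using hz
    have hre : 0 < z.re := by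
      have h1 := (abs_le.1 ((Complex.abs_re_le_norm (z - a)).trans hz')).1
      simp only [a, Complex.sub_re, Complex.ofReal_re] at h1
      linarith
    have harg : |Complex.arg z| < Real.pi / 2 :=
      Complex.abs_arg_lt_pi_div_two_iff.2 (Or.inl hre)
    have hpi := Real.pi_pos
    rw [abs_lt] at harg
    set b := Complex.arg z / (2 * Real.pi) with hb
    have hb1 : -(1 / 4) < b := by
      rw [hb, lt_div_iff₀ (by positivity)]; linarith [harg.1]
    have hb2 : b < 1 / 4 := by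
      rw [hb, div_lt_iff₀ (by positivity)]; linarith [harg.2]
    rcases le_or_gt 0 b with h | h
    · left
      have hfl : turn z = b := Int.fract_eq_self.2 ⟨h, by linarith⟩
      rw [hfl, wait, max_eq_left]
      exact (min_le_right _ _).trans (by linarith)
    · right
      have hfl : turn z = b + 1 := by
        rw [turn, ← hb, Int.fract_eq_iff]
        exact ⟨by linarith, by linarith, -1, by push_cast; ring⟩
      rw [hfl, wait, min_eq_left (by linarith), max_eq_right zero_le_one]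
  have hMeq : ∀ x ∈ closure V, ∀ z ∈ closedBall a (1 / 8 : ℝ),
      M (x, z) = (φ x, u x) := by
    intro x hx z hz
    have hge := (hbig z (by simpa [dist_eq_norm] using hz)).1
    have hR : rad ‖z‖ = 1 := by
      simp only [rad]
      rw [min_eq_left (by linarith), max_eq_right zero_le_one]
    rcases hwait z hz with h | h
    · simp [M, mfst, mv, hR, h, seg, circ_zero]
    · simp [M, mfst, mv, hR, h, seg, D.twist_one hx, D.hφA 1 x (D.hVC hx) (D.iter_mem hx 1)]
  have e7 : degree Mf Ω₂ (y, 0) = 1 := by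
    rw [← hdeg, ← degree_prod_on (k := fun w => (M w).2 ^ p) D.hV D.bddV a
      (r := 1 / 8) (by norm_num) (D.hφ.mono D.hVC) ((hM.snd.pow p).mono hsub2) ?_ ?_]
    · refine degree_congr_frontier (fun z hz => ?_) _
      have hz' := frontier_subset_closure hz
      rw [closure_prod_eq, closure_ball _ (by norm_num)] at hz'
      simp only [Mf, hMeq z.1 hz'.1 z.2 hz'.2]
    · intro x hx he
      exact hb x hx 0 (by simp) 0 (by simp) (by simp [he])
    · intro x hx z hz he
      show (M (x, z)).2 ^ p ≠ 0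
      rw [hMeq x hx z hz]
      exact pow_ne_zero _ (D.hy x (D.hVC hx) he)
  rw [e1, e2, e3, e4, e5, e6, e7]
  intro h
  have hdvd : (p : ℤ) ∣ 1 := ⟨-degree M Ω₁ (y, 0), by linear_combination h⟩
  have := Int.eq_one_of_dvd_one (Int.natCast_nonneg p) hdvd
  exact D.hp.one_lt.ne' (by exact_mod_cast this)

/-- The core incompatibility. -/
theorem false_of_data (hyV : y ∈ V) {J : Set ℕ}
    (hN : ∀ ε > 0, ∃ j ∈ J, ∀ x ∈ closure V, ‖A (p ^ j) x - x‖ < ε)
    (hb : ∀ j ∈ J, ∀ x ∈ frontier V, ∀ i, i < p ^ j → ∀ τ ∈ Icc (0 : ℝ) 1,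
      ∀ t ∈ Icc (0 : ℝ) 1, ∀ s ∈ Icc (0 : ℝ) 1, ∀ r ∈ Icc (0 : ℝ) 1,
        (1 - r) • φ x + r • φ ((1 - s) • A i (seg A x τ) + s • ((1 - t) • x + t • A (p ^ j) x))
          ≠ y)
    (hb' : ∀ x ∈ frontier V, ∀ s ∈ Icc (0 : ℝ) 1, (1 - s) • φ x + s • x ≠ y) : False := by
  obtain ⟨m, hm, hmin⟩ := exists_dist_lower_bound D.hC
    (f := fun w => Φ p φ u w) (q := (y, 0)) D.continuousOn_Φ fun w hw => D.Φ_ne hw
  obtain ⟨η, hη, hη'⟩ := Metric.uniformContinuousOn_iff.1
    (D.hC.uniformContinuousOn_of_continuous D.continuousOn_Φ) m hm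
  obtain ⟨j, hj, hclose⟩ := hN η hη
  refine D.degree_loop_ne_zero ?_ ?_ (D.degree_loop_eq_zero (j := j) ?_ (hb j hj))
  · intro x hx τ hτ r hr
    have := hb j hj x hx 0 (pow_pos D.hp.pos j) τ hτ 0 (by simp) 0 (by simp) r hr
    simpa [D.hA0 _ (D.seg_mem (frontier_subset_closure hx) hτ)] using this
  · rw [degree_congr_on D.hV D.bddV (g := id) (D.hφ.mono (frontier_subset_closure.trans D.hVC))
      continuousOn_id fun x hx s hs => hb' x hx s hs]
    exact degree_id D.hV D.bddV hyV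
  · intro x hx t ht s hs he
    have hLC : (1 - t) • x + t • A (p ^ j) x ∈ C :=
      D.hconv (D.hVC hx) (D.iter_mem hx _) (by linarith [ht.2]) ht.1 (by ring)
    have hd : dist ((1 - t) • x + t • A (p ^ j) x) x < η := by
      rw [dist_eq_norm, show (1 - t) • x + t • A (p ^ j) x - x = t • (A (p ^ j) x - x) by module,
        norm_smul, Real.norm_eq_abs, abs_of_nonneg ht.1]
      exact lt_of_le_of_lt (mul_le_of_le_one_left (norm_nonneg _) ht.2) (hclose x hx)
    have h1 := hη' _ hLC x (D.hVC hx) hd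
    rw [dist_eq_norm] at h1
    have h2 := hmin x (D.hVC hx)
    have h3 : Φ p φ u x - (y, 0)
        = s • (Φ p φ u x - Φ p φ u ((1 - t) • x + t • A (p ^ j) x)) := by
      rw [← he]; module
    rw [h3, norm_smul, Real.norm_eq_abs, abs_of_nonneg hs.1, norm_sub_rev] at h2
    have := mul_le_of_le_one_left (norm_nonneg
      (Φ p φ u ((1 - t) • x + t • A (p ^ j) x) - Φ p φ u x)) hs.2
    linarith

end CoreData

end Vale.Agent.P228
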