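import Mathlib

/-!
Regularity notions for homeomorphisms of a topological manifold.
-/

noncomputable section

open Set Filter Metric
open scoped Topology NNReal ENNReal

namespace Vale.Agent.P228

/-- The closed dyadic cube with index `q` at scale `2 ^ (-m)`. -/
def dyadicCube (n m : ℕ) (q : Fin n → ℤ) : Set (EuclideanSpace ℝ (Fin n)) :=
  {x | ∀ i, (q i : ℝ) ≤ 2 ^ m * x i ∧ 2 ^ m * x i ≤ q i + 1}

/-- The sum, over the dyadic cubes of scale `2 ^ (-m)`, of the `(n+2)`-th powers of the diameters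
of the images of the pieces of `C`. -/
def oscSum (n : ℕ) (f : EuclideanSpace ℝ (Fin n) → EuclideanSpace ℝ (Fin n))
    (C : Set (EuclideanSpace ℝ (Fin n))) (m : ℕ) : ℝ≥0∞ :=
  ∑' q : Fin n → ℤ, ediam (f '' (C ∩ dyadicCube n m q)) ^ (n + 2)

/-- A map has vanishing `(n+2)`-variation in the charts of the given atlas. -/
def VanishingVariation (n : ℕ) {M : Type*} [TopologicalSpace M]
    [ChartedSpace (EuclideanSpace ℝ (Fin n)) M] (g : M → M) : Prop :=
  ∀ e ∈ atlas (EuclideanSpace ℝ (Fin n)) M, ∀ C : Set (EuclideanSpace ℝ (Fin n)),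
    IsCompact C → C ⊆ e.target → (∀ x ∈ C, g (e.symm x) ∈ e.source) →
      Tendsto (oscSum n (fun x => e (g (e.symm x))) C) atTop (𝓝 0)

/-- A map is locally Hölder, in the charts of the given atlas, of some exponent larger than
`n / (n + 2)`; exponent and constant may vary with the map and with the point. -/
def HolderAboveCritical (n : ℕ) {M : Type*} [TopologicalSpace M]
    [ChartedSpace (EuclideanSpace ℝ (Fin n)) M] (g : M → M) : Prop :=
  ∀ e ∈ atlas (EuclideanSpace ℝ (Fin n)) M, ∀ x ∈ e.target, g (e.symm x) ∈ e.source →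
    ∃ K α : ℝ≥0, (n : ℝ) / (n + 2) < α ∧
      ∃ U ∈ 𝓝 x, HolderOnWith K α (fun y => e (g (e.symm y))) U

end Vale.Agent.P228
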